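import Vale.Agent.P153.Dist.Stm

/-! Equicontinuous sets of distributions are compact. -/

open Set Filter Topology Metric

noncomputable section
namespace Vale.Agent.P153.Dist

theorem Cpt_gen {E B : Type*} [AddCommGroup E] [Module ℝ E] [TopologicalSpace E]
    [NormedAddCommGroup B] [NormedSpace ℝ B] (p : E →L[ℝ] B) (M : ℝ) :
    IsCompact {T : CompactConvergenceCLM (RingHom.id ℝ) E ℝ | ∀ f, |T f| ≤ M * ‖p f‖} := by
  rw [isCompact_iff_ultrafilter_le_nhds']
  intro F hF
  have hF' : ∀ᶠ T : CompactConvergenceCLM (RingHom.id ℝ) E ℝ in F, ∀ f, |T f| ≤ M * ‖p f‖ := hF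
  have h1 : ∀ f, ∃ y, Tendsto (fun T : CompactConvergenceCLM (RingHom.id ℝ) E ℝ => T f) F (𝓝 y) :=
    fun f => by
      obtain ⟨y, -, hy⟩ := (isCompact_Icc (a := -(M * ‖p f‖)) (b := M * ‖p f‖)).ultrafilter_le_nhds'
        (F.map fun T : CompactConvergenceCLM (RingHom.id ℝ) E ℝ => T f)
        (hF'.mono fun T hT => abs_le.1 (hT f))
      exact ⟨y, hy⟩
  choose l hl using h1
  have hb : ∀ f, |l f| ≤ M * ‖p f‖ := fun f =>
    le_of_tendsto (hl f).abs (hF'.mono fun T hT => hT f)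
  have ha : ∀ f g, l (f + g) = l f + l g := fun f g =>
    tendsto_nhds_unique (hl (f + g)) (((hl f).add (hl g)).congr fun T => (map_add T f g).symm)
  have hs : ∀ (c : ℝ) f, l (c • f) = c • l f := fun c f =>
    tendsto_nhds_unique (hl (c • f)) (((hl f).const_smul c).congr fun T => (map_smul T c f).symm)
  have hd : ∀ f g, |l f - l g| ≤ M * ‖p f - p g‖ := fun f g => by
    have := ha (f - g) g
    rw [sub_add_cancel] at this
    rw [this, add_sub_cancel_right, ← map_sub]
    exact hb _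
  have hp : ∀ g, Tendsto (fun f => M * ‖p f - p g‖) (𝓝 g) (𝓝 0) := fun g =>
    (show Continuous fun f => M * ‖p f - p g‖ by fun_prop).tendsto' g 0 (by simp)
  have hc : Continuous l := continuous_iff_continuousAt.2 fun g =>
    tendsto_iff_dist_tendsto_zero.2 (squeeze_zero (fun _ => dist_nonneg) (fun f => hd f g) (hp g))
  let l0 : E →L[ℝ] ℝ := ⟨⟨⟨l, ha⟩, hs⟩, hc⟩
  refine ⟨l0, hb, ?_⟩
  refine (UniformConvergenceCLM.tendsto_iff_tendstoUniformlyOn (σ := RingHom.id ℝ)
    (a := fun T => T) (a₀ := l0)).2 fun s hs => Metric.tendstoUniformlyOn_iff.2 fun e he => ?_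
  refine IsCompact.induction_on hs
    (p := fun s => ∀ᶠ T : CompactConvergenceCLM (RingHom.id ℝ) E ℝ in F,
      ∀ x ∈ s, dist (l x) (T x) < e) (by simp)
    (fun s t hst h => h.mono fun T hT x hx => hT x (hst hx))
    (fun s t h h' => (h.and h').mono fun T hT x hx => hx.elim (hT.1 x) (hT.2 x)) fun g _ => ?_
  refine ⟨{f | M * ‖p f - p g‖ < e / 3}, mem_nhdsWithin_of_mem_nhds
    ((hp g).eventually (gt_mem_nhds (by linarith))), ?_⟩
  filter_upwards [hF', Metric.tendsto_nhds.1 (hl g) (e / 3) (by linarith)] with T h1 h2 f hf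
  have h3 := hd f g
  have h4 := h1 (f - g)
  have h5 : M * ‖p f - p g‖ < e / 3 := hf
  rw [map_sub, map_sub] at h4
  rw [Real.dist_eq] at h2 ⊢
  rw [abs_lt] at h2 ⊢
  rw [abs_le] at h3 h4
  constructor <;> linarith [h2.1, h2.2, h3.1, h3.2, h4.1, h4.2]

theorem s_cpt : S_cpt := fun _ p M => Cpt_gen p M

end Vale.Agent.P153.Dist
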