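import Vale.Agent.P153.Dist.Stm

/-! Integration by parts for the tightness bound. -/

open Set Filter Topology Metric MeasureTheory TopologicalSpace
open scoped BoundedContinuousFunction

noncomputable section
namespace Vale.Agent.P153.Dist

namespace Ibp2

variable {U : Opens ℂ}

/-- The derivative along `v`. -/
def dv (U : Opens ℂ) (v : ℂ) : TF U →L[ℝ] TF U := TestFunction.lineDerivCLM ℝ v

theorem ftc (f : TF U) (z v : ℂ) (hv : v ≠ 0) (b : ℝ) :
    ∫ t in Iic b, dv U v f (z + t • v) = f (z + b • v) := by
  have c : ContDiff ℝ 1 fun t : ℝ => f (z + t • v) :=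
    (f.contDiff.of_le (by exact_mod_cast le_top)).comp (by fun_prop)
  have s : HasCompactSupport fun t : ℝ => f (z + t • v) :=
    f.hasCompactSupport.comp_isClosedEmbedding
      ((Homeomorph.addLeft z).isClosedEmbedding.comp (isClosedEmbedding_smul_left hv))
  rw [← s.integral_Iic_deriv_eq c b]
  refine integral_congr_ae (.of_forall fun t => ?_)
  simp only [dv]
  have e := deriv_comp_const_add (fun s : ℝ => f (z + s • v)) t 0
  rw [add_zero] at e
  rw [TestFunction.lineDerivCLM_apply_of_le le_top, lineDeriv, ← e]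
  simp only [add_smul, add_assoc]

theorem rep (f : TF U) (z : ℂ) :
    ∫ w in {w : ℂ | w.re ≤ z.re ∧ w.im ≤ z.im}, dv U 1 (dv U Complex.I f) w = f z := by
  set g := dv U 1 (dv U Complex.I f)
  have hp := Complex.volume_preserving_equiv_real_prod.symm
  have hi : Integrable (fun p : ℝ × ℝ => g (Complex.measurableEquivRealProd.symm p)) :=
    (hp.integrable_comp_emb (MeasurableEquiv.measurableEmbedding _)).2
      (g.continuous.integrable_of_hasCompactSupport g.hasCompactSupport)
  rw [← hp.setIntegral_preimage_emb (MeasurableEquiv.measurableEmbedding _)]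
  change ∫ p in Iic z.re ×ˢ Iic z.im, _ ∂(volume.prod volume) = _
  rw [← Measure.prod_restrict, integral_prod_symm _ (by
    rw [Measure.prod_restrict]; exact hi.integrableOn)]
  have e : ∀ x y : ℝ, Complex.measurableEquivRealProd.symm (x, y) = y • Complex.I + x • 1 :=
    fun x y => Complex.ext (by simp) (by simp)
  simp only [e, g, ftc _ _ _ one_ne_zero, add_comm _ (z.re • (1 : ℂ)), ftc _ _ _ Complex.I_ne_zero]
  exact congrArg f (Complex.ext (by simp) (by simp))

end Ibp2

open Ibp2 in
theorem s_ibp2 : S_ibp := by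
  intro U R hU
  refine ⟨(TestFunction.toBoundedContinuousFunctionCLM ℝ).comp ((dv U 1).comp (dv U Complex.I)),
    fun u hu => ?_⟩
  have m : MeasurableSet {p : ℂ × ℂ | p.2.re ≤ p.1.re ∧ p.2.im ≤ p.1.im} :=
    (measurableSet_le (f := fun p : ℂ × ℂ => p.2.re) (g := fun p => p.1.re) (by fun_prop)
      (by fun_prop)).inter (measurableSet_le (f := fun p : ℂ × ℂ => p.2.im) (g := fun p => p.1.im)
        (by fun_prop) (by fun_prop))
  have m1 : ∀ w : ℂ, MeasurableSet {z : ℂ | w.re ≤ z.re ∧ w.im ≤ z.im} := fun w =>
    measurable_prodMk_right m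
  have m2 : ∀ z : ℂ, MeasurableSet {w : ℂ | w.re ≤ z.re ∧ w.im ≤ z.im} := fun z =>
    measurable_prodMk_left m
  have q : ∀ (g : ℂ → ℝ) (w : ℂ), ∫ z, {p : ℂ × ℂ | p.2.re ≤ p.1.re ∧ p.2.im ≤ p.1.im}.indicator
      (fun p => u p.1 * g p.2) (z, w) = quad u w * g w := fun g w => by
    rw [quad, ← integral_mul_const, ← integral_indicator (m1 w)]
    rfl
  have i1 : IntegrableOn (quad u) (ball 0 R) := by
    have := ((hu.mul_prod (g := fun _ => (1 : ℝ)) (integrableOn_const (s := ball (0 : ℂ) R)
      (μ := volume) measure_ball_lt_top.ne)).indicator m).integral_prod_right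
    exact this.congr (.of_forall fun w => (q (fun _ => 1) w).trans (mul_one _))
  refine ⟨i1, fun f => ?_⟩
  set g := dv U 1 (dv U Complex.I f) with hg
  have i2 := (hu.mul_prod (g.continuous.integrable_of_hasCompactSupport (μ := volume)
    g.hasCompactSupport)).indicator m
  have e : ∫ z, u z * f z = ∫ w in ball (0 : ℂ) R, quad u w * g w := by
    rw [setIntegral_eq_integral_of_forall_compl_eq_zero fun w hw => by
      rw [image_eq_zero_of_notMem_tsupport fun k => hw (hU (g.tsupport_subset k)), mul_zero]]
    simp only [← q g]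
    rw [← integral_integral_swap (f := fun z w => indicator _ (fun p : ℂ × ℂ => u p.1 * g p.2) (z, w)) i2]
    refine integral_congr_ae (.of_forall fun z => ?_)
    simp only
    rw [← rep f z, ← integral_const_mul, ← integral_indicator (m2 z)]
    rfl
  rw [e, ← integral_mul_const]
  refine abs_integral_le_integral_abs.trans (integral_mono_of_nonneg (.of_forall fun _ => abs_nonneg _)
    (i1.abs.mul_const _) (.of_forall fun w => ?_))
  simp only [abs_mul]
  exact mul_le_mul_of_nonneg_left (BoundedContinuousFunction.norm_coe_le_norm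
    (TestFunction.toBoundedContinuousFunctionCLM ℝ g) w) (abs_nonneg _)

end Vale.Agent.P153.Dist
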