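import Vale.Agent.P153.Dist.Stm

/-! The continuity theorem in the space of distributions. -/

open Set Filter Topology Metric MeasureTheory TopologicalSpace
open scoped BoundedContinuousFunction ENNReal NNReal

noncomputable section
namespace Vale.Agent.P153.Dist

theorem law {E : Type} [MeasurableSpace E] [MeasurableSingletonClass E] {S : Set Cfg} (hS : Good S)
    (x : Cfg → E) : ∃ ν : ProbabilityMeasure E, (∀ g : E → ℝ, ∫ y, g y ∂ν = Ex S fun H => g (x H)) ∧
      ∀ g : E → ℂ, ∫ y, g y ∂ν = avg S fun H => g (x H) := by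
  have c0 : (S.ncard : ℝ≥0∞) ≠ 0 := by exact_mod_cast ((ncard_pos hS.1).2 hS.2).ne'
  refine ⟨⟨(S.ncard : ℝ≥0∞)⁻¹ • ∑ H ∈ hS.1.toFinset, Measure.dirac (x H), ⟨?_⟩⟩,
    fun g => ?_, fun g => ?_⟩
  · simp only [Measure.smul_apply, Measure.finsetSum_apply, measure_univ, Finset.sum_const,
      nsmul_eq_mul, mul_one, smul_eq_mul, ← ncard_eq_toFinset_card S hS.1]
    exact ENNReal.inv_mul_cancel c0 (ENNReal.natCast_ne_top _)
  all_goals
    rw [ProbabilityMeasure.coe_mk, integral_smul_measure,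
      integral_finsetSum_measure fun H _ => integrable_dirac enorm_lt_top]
    simp only [integral_dirac, ENNReal.toReal_inv, ENNReal.toReal_natCast, Ex, avg,
      finsum_mem_eq_finite_toFinset_sum _ hS.1]
  · rw [smul_eq_mul, div_eq_inv_mul]
  · rw [Complex.real_smul, div_eq_inv_mul, Complex.ofReal_inv, Complex.ofReal_natCast]

/-- The character of a test function. -/
def chr {U : Opens ℂ} (f : TF U) : DS U →ᵇ ℂ :=
  BoundedContinuousFunction.ofNormedAddCommGroup (fun T => Complex.exp (Complex.I * (T f : ℝ)))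
    ((continuous_const.mul (Complex.continuous_ofReal.comp (continuous_eval_const f))).cexp) 1
    fun _ => (Complex.norm_exp_I_mul_ofReal _).le

theorem s_levy (h1 : S_cpt) (h2 : S_unq) : S_levy := by
  intro U _ _ S X p N C v hS hN hC hv
  choose ν n1 n2 using fun n => law (hS n) (X n)
  set K : ℕ → Set (DS U) := fun j => {T | ∀ f, |T f| ≤ ((j : ℝ) + 1) * ‖p f‖} with hK
  set u : ℕ → ℝ≥0 := fun j => (C * (1 / ((j : ℝ) + 1))).toNNReal with hu
  have u0 : Tendsto (fun j : ℕ => C * (1 / ((j : ℝ) + 1))) atTop (𝓝 0) := by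
    simpa only [mul_zero] using tendsto_one_div_add_atTop_nhds_zero_nat.const_mul C
  have u1 : Tendsto u atTop (𝓝 0) := by
    have := (continuous_real_toNNReal.tendsto 0).comp u0
    rwa [Real.toNNReal_zero] at this
  have hc := isCompact_setOfPred_probabilityMeasure_mass_eq_compl_isCompact_le u1
    (fun j => h1 U p ((j : ℝ) + 1)) (Or.inr fun i j hij T hT f => (hT f).trans
      (mul_le_mul_of_nonneg_right (by exact_mod_cast Nat.succ_le_succ hij) (norm_nonneg _)))
  have hm : ∀ᶠ n in atTop, ν n ∈ {μ : ProbabilityMeasure (DS U) | ∀ j, μ (K j)ᶜ ≤ u j} := by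
    filter_upwards [hC] with n hn j
    have m := (h1 U p ((j : ℝ) + 1)).isClosed.isOpen_compl.measurableSet
    have a := markov (S := S n) (E := {h | X n h ∈ (K j)ᶜ}) (c := (j : ℝ) + 1)
      (fun h hh => (hN n h hh).1) fun h hh k => le_of_not_gt fun k' => k fun f =>
        ((hN n h hh).2 f).trans (mul_le_mul_of_nonneg_right k'.le (norm_nonneg _))
    have b : (ν n : Measure (DS U)).real (K j)ᶜ = Pr (S n) {h | X n h ∈ (K j)ᶜ} := by
      rw [← integral_indicator_one m, n1]
      rfl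
    have c : (ν n : Measure (DS U)).real (K j)ᶜ ≤ C * (1 / ((j : ℝ) + 1)) := by
      rw [b, mul_one_div, le_div_iff₀' (by positivity)]
      exact a.trans hn
    exact (Real.le_toNNReal_iff_coe_le (measureReal_nonneg.trans c)).2 c
  have key : ∀ F : Ultrafilter ℕ, (F : Filter ℕ) ≤ atTop → ∃ μ : ProbabilityMeasure (DS U),
      (∀ j, μ (K j)ᶜ ≤ u j) ∧
      (∀ f, ∫ T, Complex.exp (Complex.I * (T f : ℝ)) ∂(μ : Measure (DS U)) = v f) ∧
      ∀ G : DS U →ᵇ ℝ, Tendsto (fun n => avg (S n) fun h => G (X n h)) F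
        (𝓝 (∫ T, G T ∂(μ : Measure (DS U)))) := by
    intro F hF
    obtain ⟨μ, m1, m2⟩ := hc.ultrafilter_le_nhds (F.map ν) (le_principal_iff.2 (hF hm))
    refine ⟨μ, m1, fun f => ?_, fun G => ?_⟩
    · have := (ProbabilityMeasure.tendsto_iff_forall_integral_rclike_tendsto ℂ).1 m2 (chr f)
      simp only [n2] at this
      exact tendsto_nhds_unique this ((hv f).mono_left hF)
    · have := ProbabilityMeasure.tendsto_iff_forall_integral_tendsto.1 m2 G
      simp only [n1] at this
      exact this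
  obtain ⟨μ, m1, m2, -⟩ := key (Ultrafilter.of atTop) (Ultrafilter.of_le _)
  refine ⟨μ, μ.2, m2, fun G => (tendsto_iff_ultrafilter _ _ _).2 fun F hF => ?_⟩
  obtain ⟨μ', k1, k2, k3⟩ := key F hF
  rw [h2 U μ μ' μ.2 μ'.2 (fun e he => ?_) (fun f => (m2 f).trans (k2 f).symm) G]
  · exact k3 G
  · obtain ⟨j, hj⟩ := (u1.eventually (ge_mem_nhds (Real.toNNReal_pos.2 he))).exists
    refine ⟨K j, h1 U p _, ?_, ?_⟩
    · exact (Real.le_toNNReal_iff_coe_le he.le).1 ((m1 j).trans hj)
    · exact (Real.le_toNNReal_iff_coe_le he.le).1 ((k1 j).trans hj)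

end Vale.Agent.P153.Dist
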