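import Vale.Agent.P153.Dist.Stm
import Vale.Agent.P153.Wick.Main

/-! Convergence in law in the space of distributions. -/

open Set Filter Topology Metric MeasureTheory TopologicalSpace ProbabilityTheory
open scoped BoundedContinuousFunction

noncomputable section
namespace Vale.Agent.P153.Dist

theorem Ex_int {S : Set Cfg} (hS : Good S) {μ : Measure ℂ} {g : Cfg → ℂ → ℝ}
    (hg : ∀ h ∈ S, Integrable (g h) μ) :
    Ex S (fun h => ∫ w, g h w ∂μ) = ∫ w, Ex S (fun h => g h w) ∂μ := by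
  simp only [Ex_eq hS.1]
  rw [integral_div, integral_finsetSum _ fun h hh => hg h (hS.1.mem_toFinset.1 hh)]

theorem gauss {E : Type} [MeasurableSpace E] {μ : Measure E} [IsProbabilityMeasure μ] {Y : E → ℝ}
    (hY : Measurable Y) {v : ℝ} (h : ∀ t : ℝ, ∫ T, Complex.exp (Complex.I * (t * Y T : ℝ)) ∂μ =
      Complex.exp (-(t ^ 2 * v / 2 : ℝ))) : 0 ≤ v ∧ μ.map Y = gaussianReal 0 v.toNNReal := by
  have v0 : 0 ≤ v := by
    have a := norm_integral_le_of_norm_le_const (μ := μ) (C := 1)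
      (f := fun T => Complex.exp (Complex.I * (1 * Y T : ℝ)))
      (.of_forall fun T => (Complex.norm_exp_I_mul_ofReal _).le)
    rw [h, ← Complex.ofReal_neg, Complex.norm_exp_ofReal, probReal_univ, mul_one,
      Real.exp_le_one_iff] at a
    linarith
  have := Measure.isProbabilityMeasure_map (μ := μ) hY.aemeasurable
  refine ⟨v0, Measure.ext_of_charFun (funext fun t => ?_)⟩
  rw [charFun_gaussianReal, charFun_apply_real, integral_map hY.aemeasurable (by fun_prop),
    Real.coe_toNNReal _ v0]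
  refine Eq.trans (integral_congr_ae (.of_forall fun T => ?_)) ((h t).trans ?_)
  · simp only
    congr 1
    push_cast
    ring
  · congr 1
    push_cast
    ring

theorem dist_of (h1 : S_levy) (h2 : S_ibp) (h3 : S_int) (h4 : S_mom) {ψ : ℂ → ℂ} {L : ℕ → LDom}
    {δ : ℕ → ℝ} {ε : ℤ} (hψ : IsJordanMap ψ) (hA : Approx ψ L δ) (hε : ε = 1 ∨ ε = -1)
    (hS : ∀ n, Good ((L n).Hts ε)) {c : ℝ} (hc : 0 < c)
    (hl : ∀ f, IsTest ψ f → Tendsto (fun n => avg ((L n).Hts ε) fun h => Complex.exp (Complex.I *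
      (((L n).field (δ n) f h - avg ((L n).Hts ε) ((L n).field (δ n) f)) / c : ℝ))) atTop
      (𝓝 (Complex.exp (-(gffVar ψ f / 2 : ℝ)))))
    (U : Opens ℂ) [MeasurableSpace (DS U)] [BorelSpace (DS U)] (hU : (U : Set ℂ) = ψ '' ball 0 1) :
    ∃ (X : ℕ → (V → ℤ) → DS U) (μ : Measure (DS U)),
      (∀ n, ∀ h ∈ (L n).Hts ε, ∀ f : TF U,
        X n h f = ((L n).field (δ n) f h - avg ((L n).Hts ε) ((L n).field (δ n) f)) / c) ∧
      IsProbabilityMeasure μ ∧
      (∀ f : TF U, 0 ≤ gffVar ψ f ∧ μ.map (fun T => T f) = gaussianReal 0 (gffVar ψ f).toNNReal) ∧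
      ∀ G : DS U →ᵇ ℝ,
        Tendsto (fun n => avg ((L n).Hts ε) fun h => G (X n h)) atTop (𝓝 (∫ T, G T ∂μ)) := by
  obtain ⟨d1, d2, d3, -, -, -, d4⟩ := Wick.s_conf ψ hψ
  obtain ⟨R, hR⟩ := d2.subset_ball 0
  obtain ⟨p, hp⟩ := h2 U R (hU ▸ hR)
  obtain ⟨C, hC⟩ := h4 ψ L δ ε hψ hA hε
  have hi := fun n => h3 (L n) (δ n) ε (hA.1 n)
  set Y : ℕ → Cfg → TF U →L[ℝ] ℝ := fun n h => TestFunction.integralAgainstBilinCLM
    (ContinuousLinearMap.mul ℝ ℝ) volume (uf (L n) (δ n) h)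
  have hY : ∀ n, ∀ h ∈ (L n).Hts ε, ∀ f : TF U, Y n h f = (L n).field (δ n) f h := fun n h hh f => by
    rw [TestFunction.integralAgainstBilinCLM_eq_integral
      ((hi n h hh).1.locallyIntegrable.locallyIntegrableOn _), (hi n h hh).2]
    simp only [ContinuousLinearMap.mul_apply', mul_comm]
  set X : ℕ → Cfg → TF U →L[ℝ] ℝ := fun n h =>
    c⁻¹ • (Y n h - (((L n).Hts ε).ncard : ℝ)⁻¹ • ∑ k ∈ (hS n).1.toFinset, Y n k)
  have hX : ∀ n, ∀ h ∈ (L n).Hts ε, ∀ f : TF U,
      X n h f = ((L n).field (δ n) f h - Ex ((L n).Hts ε) ((L n).field (δ n) f)) / c := by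
    intro n h hh f
    simp only [X, smul_apply, sub_apply, sum_apply, smul_eq_mul]
    rw [hY n h hh, Finset.sum_congr rfl fun k hk => hY n k ((hS n).1.mem_toFinset.1 hk) f,
      Ex_eq (hS n).1]
    ring
  set M : ℕ → Cfg → ℝ := fun n h => ∫ w in ball (0 : ℂ) R, |quad (uf (L n) (δ n) h) w|
  have M0 : ∀ n h, 0 ≤ M n h := fun n h => integral_nonneg fun _ => abs_nonneg _
  have hM : ∀ n, ∀ h ∈ (L n).Hts ε, ∀ f : TF U, |(L n).field (δ n) f h| ≤ M n h * ‖p f‖ :=
    fun n h hh f => by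
      rw [(hi n h hh).2]
      exact (hp _ (hi n h hh).1).2 f
  have ht : ∀ f : TF U, IsTest ψ f := fun f => ⟨f.contDiff, f.hasCompactSupport, hU ▸ f.tsupport_subset⟩
  refine (h1 U (fun n => (L n).Hts ε) X p
    (fun n h => (M n h + Ex ((L n).Hts ε) (M n)) / c)
    ((C * volume.real (ball (0 : ℂ) R) + C * volume.real (ball (0 : ℂ) R)) / c)
    (fun f => Complex.exp (-(gffVar ψ f / 2 : ℝ))) hS (fun n h hh => ⟨div_nonneg
      (add_nonneg (M0 n h) (Ex_nonneg fun k _ => M0 n k)) hc.le, fun f => ?_⟩) ?_ fun f => ?_).elim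
      fun μ ⟨m1, m2, m3⟩ => ?_
  rotate_right
  · refine ⟨X, μ, hX, m1, fun f => gauss (continuous_eval_const f).measurable fun t => ?_, m3⟩
    have a := m2 (t • f)
    simp only [map_smul, smul_eq_mul] at a
    rw [a, d4, d4, ← (Wick.s_Q _ ψ _ f d1 d3).2 t]
    rfl
  · change |X n h f| ≤ _
    rw [hX n h hh, abs_div, abs_of_pos hc, div_mul_eq_mul_div, add_mul, ← Ex_mul_right]
    exact div_le_div_of_nonneg_right ((abs_sub _ _).trans (add_le_add (hM n h hh f)
      ((abs_Ex_le _ _).trans (Ex_mono fun k hk => hM n k hk f)))) hc.le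
  · filter_upwards [hC] with n hn
    have a : Ex ((L n).Hts ε) (M n) ≤ C * volume.real (ball (0 : ℂ) R) := by
      rw [Ex_int (hS n) fun h hh => (hp _ (hi n h hh).1).1.abs]
      refine (Real.le_norm_self _).trans (norm_setIntegral_le_of_norm_le_const measure_ball_lt_top
        fun w _ => ?_)
      rw [Real.norm_of_nonneg (Ex_nonneg fun _ _ => abs_nonneg _)]
      exact hn _ ((isClosed_le continuous_const Complex.continuous_re).inter
        (isClosed_le continuous_const Complex.continuous_im)).measurableSet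
    rw [Ex_div, Ex_add, Ex_const (hS n)]
    exact div_le_div_of_nonneg_right (add_le_add a a) hc.le
  · refine (hl f (ht f)).congr fun n => Wick.Final.avg_congr fun h hh => ?_
    exact congrArg (fun t : ℝ => Complex.exp (Complex.I * t)) (hX n h hh f).symm

end Vale.Agent.P153.Dist
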