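import Vale.Agent.P153.Dist.Stm
import Vale.Agent.P153.Wick.Wt
import Vale.Agent.P153.Wick.Hat
import Vale.Agent.P153.Wick.Emb
import Vale.Agent.P153.Wick.Ld1
import Vale.Agent.P153.Wick.Ld2
import Vale.Agent.P153.Wick.Bij
import Vale.Agent.P153.Wick.Seq
import Vale.Agent.P153.K2.Card

/-! The density of the field: integrability and the uniform first moment. -/

open Set Filter Topology Metric MeasureTheory

noncomputable section
namespace Vale.Agent.P153.Dist

open Vale.Agent.P153.Wick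

namespace Mom

theorem ld2 : S_ld2 := s_ld2 s_emb s_ld1

theorem op (L : LDom) : IsOpen L.dom := by
  have hc : IsClosed (L.bd '' Icc 0 1) :=
    (isCompact_Icc.image_of_continuousOn (s_ld1 L).1).isClosed
  rw [isOpen_iff_forall_mem_open]
  intro z hz
  refine ⟨connectedComponentIn (L.bd '' Icc 0 1)ᶜ z,
    fun w hw => ⟨connectedComponentIn_subset _ _ hw, ?_⟩, hc.isOpen_compl.connectedComponentIn,
    mem_connectedComponentIn hz.1⟩
  rw [← connectedComponentIn_eq hw]; exact hz.2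

theorem meas (L : LDom) (δ : ℝ) : MeasurableSet {z : ℂ | z / δ ∈ L.dom} :=
  ((op L).preimage (continuous_id.div_const (δ : ℂ))).measurableSet

theorem fin (L : LDom) : L.vert.Finite :=
  ((ld2 L).1.1.union ((finite_Iio L.N).image L.β)).subset fun _ hx => hx

theorem uf_eq {L : LDom} {ε : ℤ} {h : V → ℤ} (hh : h ∈ L.Hts ε) (δ : ℝ) (z : ℂ) :
    uf L δ h z = ∑ x ∈ (fin L).toFinset,
      h x * {z : ℂ | z / δ ∈ L.dom}.indicator (fun z => hat (z / δ - emb x)) z := by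
  by_cases hz : z ∈ {z : ℂ | z / δ ∈ L.dom}
  · simp only [uf, indicator_of_mem hz, interp]
    refine finsum_eq_sum_of_support_subset _ fun x hx => ?_
    by_contra hn
    rw [Finite.coe_toFinset] at hn
    exact hx (by simp [hh.2.1 x hn])
  · simp [uf, indicator_of_notMem hz]

theorem int_eq {L : LDom} {ε : ℤ} {h : V → ℤ} (hh : h ∈ L.Hts ε) {δ : ℝ} (hδ : 0 < δ)
    {A : Set ℂ} (hA : MeasurableSet A) : ∫ z in A, uf L δ h z = ∑ x ∈ (fin L).toFinset,
      h x * ∫ z : ℂ, hat (z / δ - emb x) * (A ∩ {z : ℂ | z / δ ∈ L.dom}).indicator 1 z := by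
  simp only [uf_eq hh]
  rw [integral_finset_sum _ fun x _ =>
    (((Wt.ihat s_hat hδ x).indicator (meas L δ)).const_mul _).integrableOn]
  refine Finset.sum_congr rfl fun x _ => ?_
  rw [integral_const_mul, ← integral_indicator hA, indicator_indicator]
  congr 2
  funext z
  by_cases hz : z ∈ A ∩ {z : ℂ | z / δ ∈ L.dom} <;> simp [hz]

theorem arc {L : LDom} {ε : ℤ} (hε : ε = 1 ∨ ε = -1) {h : V → ℤ} (hh : h ∈ L.Hts ε) {x : V}
    (hx : x ∈ L.vert) (hF : x ∉ Fr L) : |(h x : ℝ)| = 1 := by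
  obtain ⟨i, hi, rfl⟩ := hx.resolve_left hF
  rcases lt_or_ge i L.k with h1 | h1
  · rw [hh.2.2.1 i h1]; rcases hε with rfl | rfl <;> simp
  · rw [hh.2.2.2.1 i h1 hi]; rcases hε with rfl | rfl <;> simp

theorem abs_le4 {t M : ℝ} (hM : 0 < M) : |t| ≤ M + (M ^ 3)⁻¹ * t ^ 4 := by
  have e : t ^ 4 = |t| ^ 4 := (Even.pow_abs (by norm_num) t).symm
  have h0 := abs_nonneg t
  rcases le_total |t| M with h | h
  · exact h.trans (le_add_of_nonneg_right (by positivity))
  · have : |t| ≤ (M ^ 3)⁻¹ * t ^ 4 := by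
      rw [e, le_inv_mul_iff₀ (by positivity), pow_succ |t| 3]
      exact mul_le_mul_of_nonneg_right (pow_le_pow_left₀ hM.le h 3) h0
    linarith

theorem one {C : ℝ} (hC : ∀ (F S : Set V) (x : V) (N : ℕ) (a : V →₀ ℝ), Wick.Dom F → 1 ≤ N →
      ¬ hex x N ⊆ F → B1 a x N → Ex (dob F S) (fun H => lin a H ^ 4) ≤ C * N ^ 8)
    (L : LDom) {ε : ℤ} (hε : ε = 1 ∨ ε = -1) {N : ℕ} (hN : 1 ≤ N) (hv : L.vert ⊆ hex 0 N)
    {a : V → ℝ} (ha : ∀ x, |a x| ≤ 1) :
    Ex (L.Hts ε) (fun h => |∑ x ∈ (fin L).toFinset, h x * a x|) ≤ (11 + 2 * C) * N ^ 2 := by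
  classical
  obtain ⟨e, he, h2⟩ := s_bij ld2 L ε hε
  have hN' : (1 : ℝ) ≤ N := by exact_mod_cast hN
  have hM : (0 : ℝ) < N ^ 2 := by positivity
  let b : V →₀ ℝ := Finsupp.onFinset (fin L).toFinset (fun x => if x ∈ Fr L then a x else 0)
    fun x hx => (fin L).mem_toFinset.2 (Or.inl (by by_contra hn; exact hx (if_neg hn)))
  have hb : B1 b 0 N := ⟨fun y => by
    simp only [b, Finsupp.onFinset_apply]
    split_ifs
    exacts [ha y, by simp], fun y hy =>
      hv ((fin L).mem_toFinset.1 (Finsupp.support_onFinset_subset (Finsupp.mem_support_iff.2 hy)))⟩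
  have hl : ∀ H : Cfg, lin b H =
      ∑ x ∈ (fin L).toFinset, (if x ∈ Fr L then a x else 0) * H x := fun H =>
    Finsupp.sum_of_support_subset _ Finsupp.support_onFinset_subset _ fun _ _ => zero_mul _
  have hc : (((fin L).toFinset.card : ℕ) : ℝ) ≤ 9 * N ^ 2 := by
    have h1 : (fin L).toFinset.card ≤ (2 * N + 1) ^ 2 :=
      (Finset.card_le_card fun x hx => by
        simpa [K2.hexF] using hv ((fin L).mem_toFinset.1 hx)).trans (K2.s_card 0 N).2
    have h3 : (((fin L).toFinset.card : ℕ) : ℝ) ≤ (2 * N + 1) ^ 2 := by exact_mod_cast h1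
    nlinarith
  have h0 : L.β 0 ∉ Fr L := (ld2 L).2.2.1 ⟨0, L.k_pos, rfl⟩
  have hm := hC (Fr L) (Sp L ε) 0 N b (ld2 L).1 hN
    (fun h => h0 (h (hv (Or.inr ⟨0, L.k_pos.trans L.k_lt, rfl⟩)))) hb
  rw [← Ex_bij he]
  refine (Ex_mono (g := fun H => 11 * N ^ 2 + 2 * ((N ^ 2) ^ 3 : ℝ)⁻¹ * lin b H ^ 4)
    fun H hH => ?_).trans ?_
  · have e1 : ∑ x ∈ (fin L).toFinset, (e H x : ℝ) * a x = 2 * lin b H +
        ∑ x ∈ (fin L).toFinset, if x ∈ Fr L then -a x else e H x * a x := by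
      rw [hl, Finset.mul_sum, ← Finset.sum_add_distrib]
      refine Finset.sum_congr rfl fun x _ => ?_
      split_ifs with hx
      · rw [h2 H x hx]; push_cast; ring
      · ring
    have e2 : |∑ x ∈ (fin L).toFinset, if x ∈ Fr L then -a x else (e H x : ℝ) * a x| ≤
        (fin L).toFinset.card • (1 : ℝ) := by
      refine (Finset.abs_sum_le_sum_abs _ _).trans (Finset.sum_le_card_nsmul _ _ _ fun x hx => ?_)
      split_ifs with h
      · rw [abs_neg]; exact ha x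
      · rw [abs_mul, arc hε (he.1 hH) ((fin L).mem_toFinset.1 hx) h, one_mul]; exact ha x
    rw [nsmul_eq_mul, mul_one] at e2
    have e3 := abs_le4 (t := lin b H) hM
    rw [e1]
    refine (abs_add_le _ _).trans ?_
    rw [abs_mul, abs_two]
    linarith
  · rw [Ex_add, Ex_mul_left _ (2 * _)]
    have e1 := Ex_le' (S := dob (Fr L) (Sp L ε)) (f := fun _ => 11 * (N : ℝ) ^ 2)
      (c := 11 * (N : ℝ) ^ 2) (by positivity) fun _ _ => le_rfl
    have e2 := mul_le_mul_of_nonneg_left hm (show 0 ≤ 2 * (((N : ℝ) ^ 2) ^ 3)⁻¹ by positivity)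
    have e3 : 2 * (((N : ℝ) ^ 2) ^ 3)⁻¹ * (C * N ^ 8) = 2 * C * N ^ 2 := by field_simp
    linarith

end Mom

open Mom

theorem s_int : S_int := by
  intro L δ ε hδ h hh
  refine ⟨?_, fun f => ?_⟩
  · rw [funext (uf_eq hh δ)]
    exact integrable_finset_sum _ fun x _ =>
      ((Wt.ihat s_hat hδ x).indicator (meas L δ)).const_mul _
  · rw [LDom.field, ← integral_indicator (meas L δ)]
    congr 1
    funext z
    exact indicator_mul_left _ (fun z : ℂ => interp h (z / δ)) f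

theorem s_mom (hb : L_mb) : S_mom := by
  intro ψ L δ ε hψ hA hε
  obtain ⟨C, hC⟩ := hb
  obtain ⟨R, hR⟩ := (isCompact_closedBall (0 : ℂ) 1).exists_bound_of_continuousOn hψ.1
  have hR0 : 0 ≤ R := (norm_nonneg _).trans (hR 0 (mem_closedBall_self zero_le_one))
  refine ⟨4 * ((11 + 2 * max C 0) * (2 * R + 3) ^ 2), ?_⟩
  filter_upwards [hA.2.2.2 1 one_pos, hA.2.1.eventually (gt_mem_nhds one_pos)]
    with n ⟨ρ, hρ⟩ h1 A hm
  have hδ := hA.1 n
  have h3 : ‖(δ n : ℂ)‖ = δ n := by rw [Complex.norm_real, Real.norm_of_nonneg hδ.le]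
  have h4 : ∀ t ∈ Icc (0 : ℝ) 1, (L n).bd t ∈ closedBall (0 : ℂ) ((R + 1) / δ n) := fun t ht => by
    have h5 := hρ (ρ.symm ⟨t, ht⟩)
    rw [ρ.apply_symm_apply, dist_eq_norm] at h5
    have h6 := (norm_le_norm_add_norm_sub' _ _).trans
      (add_le_add (hR _ (Seq.norm_pt _)) h5)
    rwa [norm_mul, h3, ← le_div_iff₀' hδ, ← mem_closedBall_zero_iff] at h6
  have hp : 0 < (R + 1) / δ n := by positivity
  set N := ⌈2 * ((R + 1) / δ n)⌉₊ with hN
  have hv : (L n).vert ⊆ hex 0 N := fun x hx => by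
    have h5 : emb x ∈ closedBall (0 : ℂ) ((R + 1) / δ n) := by
      rcases hx with hx | ⟨i, hi, rfl⟩
      · exact (s_ld1 (L n)).2.2.2 _ _ h4 hx
      · have h6 : (0 : ℝ) < (L n).N := by exact_mod_cast (by omega : 0 < (L n).N)
        rw [← (s_ld1 (L n)).2.1 i hi.le]
        exact h4 _ ⟨by positivity, (div_le_one h6).2 (by exact_mod_cast hi.le)⟩
    rw [mem_closedBall_zero_iff] at h5
    have h6 := (s_emb.2.2.1 x).2
    have h7 : (nrm x : ℝ) ≤ N := by linarith [Nat.le_ceil (2 * ((R + 1) / δ n))]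
    change nrm (x - 0) ≤ N
    rw [sub_zero]; exact_mod_cast h7
  have hNd : N * δ n ≤ 2 * R + 3 := by
    have h5 := mul_le_mul_of_nonneg_right
      (Nat.ceil_lt_add_one (show 0 ≤ 2 * ((R + 1) / δ n) by positivity)).le hδ.le
    rw [add_mul, mul_assoc, div_mul_cancel₀ _ hδ.ne'] at h5
    linarith
  have hq : 0 < 4 * δ n ^ 2 := by positivity
  have key := one (C := max C 0) (fun F S x N a k1 k2 k3 k4 => (hC F S x N a k1 k2 k3 k4).trans
    (mul_le_mul_of_nonneg_right (le_max_left _ _) (by positivity))) (L n) hε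
    (Nat.ceil_pos.2 (by positivity)) hv
    (a := fun x => (∫ z : ℂ, hat (z / δ n - emb x) *
      (A ∩ {z : ℂ | z / δ n ∈ (L n).dom}).indicator 1 z) / (4 * δ n ^ 2)) fun x => by
      rw [abs_div, abs_of_pos hq, div_le_one hq]
      simpa using Wt.bound s_hat hδ x _ (B := 1) fun z _ => by
        by_cases hz : z ∈ A ∩ {z : ℂ | z / δ n ∈ (L n).dom} <;> simp [hz]
  rw [Ex_congr (g := fun h => 4 * δ n ^ 2 * |∑ x ∈ (fin (L n)).toFinset, h x *
      ((∫ z : ℂ, hat (z / δ n - emb x) *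
        (A ∩ {z : ℂ | z / δ n ∈ (L n).dom}).indicator 1 z) / (4 * δ n ^ 2))|) fun h hh => by
    rw [int_eq hh hδ hm]
    simp only [← mul_div_assoc, ← Finset.sum_div]
    rw [abs_div, abs_of_pos hq, mul_div_cancel₀ _ hq.ne'], Ex_mul_left]
  refine (mul_le_mul_of_nonneg_left key hq.le).trans ?_
  have h5 : (N * δ n) ^ 2 ≤ (2 * R + 3) ^ 2 := pow_le_pow_left₀ (by positivity) hNd 2
  have h6 : 0 ≤ 11 + 2 * max C 0 := by positivity
  nlinarith [mul_le_mul_of_nonneg_left h5 h6]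

end Vale.Agent.P153.Dist
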