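import Vale.Agent.P153.Wick.Stm

/-! Convergence in law in the space of distributions: statements. -/

open Set Filter Topology Metric MeasureTheory TopologicalSpace
open scoped BoundedContinuousFunction

noncomputable section
namespace Vale.Agent.P153.Dist

/-- Test functions. -/
abbrev TF (U : Opens ℂ) : Type := TestFunction U ℝ ⊤

/-- Distributions. -/
abbrev DS (U : Opens ℂ) : Type := Distribution U ℝ ⊤

/-- The density of the field. -/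
def uf (L : LDom) (δ : ℝ) (h : V → ℤ) : ℂ → ℝ :=
  {z : ℂ | z / δ ∈ L.dom}.indicator fun z => interp h (z / δ)

/-- The integral over a quadrant. -/
def quad (u : ℂ → ℝ) (w : ℂ) : ℝ := ∫ z in {z : ℂ | w.re ≤ z.re ∧ w.im ≤ z.im}, u z

/-- Equicontinuous sets are compact. -/
def S_cpt : Prop := ∀ (U : Opens ℂ) (p : TF U →L[ℝ] (ℂ →ᵇ ℝ)) (M : ℝ),
  IsCompact {T : DS U | ∀ f, |T f| ≤ M * ‖p f‖}

/-- Tight laws are determined by the characteristic functional. -/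
def S_unq : Prop := ∀ (U : Opens ℂ) [MeasurableSpace (DS U)] [BorelSpace (DS U)]
  (P Q : Measure (DS U)), IsProbabilityMeasure P → IsProbabilityMeasure Q →
  (∀ e : ℝ, 0 < e → ∃ K, IsCompact K ∧ P.real Kᶜ ≤ e ∧ Q.real Kᶜ ≤ e) →
  (∀ f : TF U, ∫ T, Complex.exp (Complex.I * (T f : ℝ)) ∂P =
    ∫ T, Complex.exp (Complex.I * (T f : ℝ)) ∂Q) →
  ∀ G : DS U →ᵇ ℝ, ∫ T, G T ∂P = ∫ T, G T ∂Q

/-- Integration by parts. -/
def S_ibp : Prop := ∀ (U : Opens ℂ) (R : ℝ), (U : Set ℂ) ⊆ ball 0 R →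
  ∃ p : TF U →L[ℝ] (ℂ →ᵇ ℝ), ∀ u : ℂ → ℝ, Integrable u → IntegrableOn (quad u) (ball 0 R) ∧
    ∀ f : TF U, |∫ z, u z * f z| ≤ (∫ w in ball (0 : ℂ) R, |quad u w|) * ‖p f‖

def S_int : Prop := ∀ (L : LDom) (δ : ℝ) (ε : ℤ), 0 < δ → ∀ h ∈ L.Hts ε,
  Integrable (uf L δ h) ∧ ∀ f : ℂ → ℝ, L.field δ f h = ∫ z, uf L δ h z * f z

/-- The uniform moment bound. -/
def S_mom : Prop := ∀ ψ L δ (ε : ℤ), IsJordanMap ψ → Approx ψ L δ → (ε = 1 ∨ ε = -1) →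
  ∃ C : ℝ, ∀ᶠ n in atTop, ∀ A : Set ℂ, MeasurableSet A →
    Ex ((L n).Hts ε) (fun h => |∫ z in A, uf (L n) (δ n) h z|) ≤ C

/-- The continuity theorem. -/
def S_levy : Prop := ∀ (U : Opens ℂ) [MeasurableSpace (DS U)] [BorelSpace (DS U)]
  (S : ℕ → Set Cfg) (X : ℕ → Cfg → DS U) (p : TF U →L[ℝ] (ℂ →ᵇ ℝ)) (N : ℕ → Cfg → ℝ) (C : ℝ)
  (v : TF U → ℂ), (∀ n, Good (S n)) →
  (∀ n, ∀ h ∈ S n, 0 ≤ N n h ∧ ∀ f, |X n h f| ≤ N n h * ‖p f‖) → (∀ᶠ n in atTop, Ex (S n) (N n) ≤ C) →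
  (∀ f, Tendsto (fun n => avg (S n) fun h => Complex.exp (Complex.I * (X n h f : ℝ))) atTop
    (𝓝 (v f))) →
  ∃ μ : Measure (DS U), IsProbabilityMeasure μ ∧
    (∀ f, ∫ T, Complex.exp (Complex.I * (T f : ℝ)) ∂μ = v f) ∧
    ∀ G : DS U →ᵇ ℝ, Tendsto (fun n => avg (S n) fun h => G (X n h)) atTop (𝓝 (∫ T, G T ∂μ))

end Vale.Agent.P153.Dist
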