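import Vale.Agent.P153.Dist.Stm

/-! Tight laws on the space of distributions are determined by the characteristic functional. -/

open Set Filter Topology Metric MeasureTheory Real
open scoped BoundedContinuousFunction

noncomputable section
namespace Vale.Agent.P153.Dist

theorem Unq_alg {X : Type*} [TopologicalSpace X] [T2Space X] [MeasurableSpace X] [BorelSpace X]
    (P Q : Measure X) [IsProbabilityMeasure P] [IsProbabilityMeasure Q]
    (ht : ∀ e : ℝ, 0 < e → ∃ K, IsCompact K ∧ P.real Kᶜ ≤ e ∧ Q.real Kᶜ ≤ e)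
    {A : Subalgebra ℝ (X →ᵇ ℝ)}
    (hA : (A.map (BoundedContinuousFunction.toContinuousMapₐ ℝ)).SeparatesPoints)
    (heq : ∀ g ∈ A, ∫ x, (g : X → ℝ) x ∂P = ∫ x, (g : X → ℝ) x ∂Q) (G : X →ᵇ ℝ) :
    ∫ x, G x ∂P = ∫ x, G x ∂Q := by
  have main : ∀ η : ℝ, 0 < η →
      ∫ x, mulExpNegMulSq η (G x) ∂P = ∫ x, mulExpNegMulSq η (G x) ∂Q := fun η hη => by
    obtain ⟨C, hC⟩ : ∃ C : ℝ, C = 2 * (√η)⁻¹ := ⟨_, rfl⟩
    have C0 : 0 ≤ C := by rw [hC]; positivity
    refine eq_of_forall_dist_le fun ε hε => ?_
    obtain ⟨e, he, e1⟩ : ∃ e : ℝ, 0 < e ∧ 2 * (e + C * e) = ε :=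
      ⟨ε / (2 * (1 + C)), by positivity, by field_simp⟩
    obtain ⟨K, hK, hP, hQ⟩ := ht e he
    obtain ⟨g', ⟨g, hg, rfl⟩, hap⟩ :=
      ContinuousMap.exists_mem_subalgebra_near_continuous_of_isCompact_of_separatesPoints
        hA G hK he
    have hm : MeasurableSet Kᶜ := hK.isClosed.measurableSet.compl
    have key : ∀ (μ : Measure X) [IsProbabilityMeasure μ], μ.real Kᶜ ≤ e →
        |∫ x, mulExpNegMulSq η (G x) ∂μ - ∫ x, mulExpNegMulSq η (g x) ∂μ| ≤ e + C * e := by
      intro μ _ hμ
      have i1 : Integrable (fun x => mulExpNegMulSq η (G x)) μ :=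
        integrable_mulExpNegMulSq_comp (G : C(X, ℝ)) hη
      have i2 : Integrable (fun x => mulExpNegMulSq η (g x)) μ :=
        integrable_mulExpNegMulSq_comp (g : C(X, ℝ)) hη
      have i3 : Integrable (Kᶜ.indicator fun _ => C) μ := (integrable_const C).indicator hm
      rw [← integral_sub i1 i2, ← norm_eq_abs]
      refine (norm_integral_le_of_norm_le (g := fun x => e + Kᶜ.indicator (fun _ => C) x)
        ((integrable_const e).add i3) (ae_of_all _ fun x => ?_)).trans ?_
      · rw [← dist_eq_norm]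
        by_cases hx : x ∈ K
        · rw [indicator_of_notMem (by simpa using hx), add_zero]
          refine (dist_mulExpNegMulSq_le_dist hη).trans ?_
          rw [dist_comm, dist_eq_norm]
          exact (hap x hx).le
        · rw [indicator_of_mem (by simpa using hx), hC]
          linarith [dist_mulExpNegMulSq_le_two_mul_sqrt hη (G x) (g x)]
      · rw [integral_add (integrable_const e) i3, integral_const, integral_indicator_const _ hm]
        simp only [probReal_univ, smul_eq_mul, one_mul]
        nlinarith [mul_le_mul_of_nonneg_left hμ C0]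
    have k1 := key P hP
    have k2 := key Q hQ
    rw [integral_mulExpNegMulSq_comp_eq hη heq hg] at k1
    rw [Real.dist_eq, ← e1]
    rw [abs_le] at k1 k2 ⊢
    constructor <;> linarith [k1.1, k1.2, k2.1, k2.2]
  refine tendsto_nhds_unique (tendsto_integral_mulExpNegMulSq_comp (P := P) G)
    ((tendsto_integral_mulExpNegMulSq_comp (P := Q) G).congr' ?_)
  filter_upwards [self_mem_nhdsWithin] with η hη using (main η hη).symm

/-- Cosines of evaluations. -/
def Unq_c {U : TopologicalSpace.Opens ℂ} (f : TF U) (θ : ℝ) : DS U →ᵇ ℝ :=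
  BoundedContinuousFunction.ofNormedAddCommGroup (fun T => cos (T f + θ))
    (continuous_cos.comp ((continuous_eval_const f).add continuous_const)) 1
    fun _ => abs_cos_le_one _

theorem Unq_app {U : TopologicalSpace.Opens ℂ} (f : TF U) (θ : ℝ) (T : DS U) :
    Unq_c f θ T = cos (T f + θ) := rfl

theorem s_unq : S_unq := by
  intro U _ _ P Q _ _ ht hc
  obtain ⟨S, hS⟩ : ∃ S : Set (DS U →ᵇ ℝ), S = {g | ∃ f θ, Unq_c f θ = g} := ⟨_, rfl⟩
  have mem : ∀ f θ, Unq_c f θ ∈ Submodule.span ℝ S := fun f θ =>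
    Submodule.subset_span (hS ▸ ⟨f, θ, rfl⟩)
  have h1 : (1 : DS U →ᵇ ℝ) ∈ Submodule.span ℝ S := by
    rw [show (1 : DS U →ᵇ ℝ) = Unq_c 0 0 by
      ext T; rw [Unq_app, map_zero, add_zero, cos_zero]; rfl]
    exact mem _ _
  have hmul : ∀ x y, x ∈ Submodule.span ℝ S → y ∈ Submodule.span ℝ S →
      x * y ∈ Submodule.span ℝ S := fun x y hx hy => by
    have := Submodule.mul_mem_mul hx hy
    rw [Submodule.span_mul_span] at this
    refine Submodule.span_le.2 ?_ this
    rintro _ ⟨a, ha, b, hb, rfl⟩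
    rw [hS] at ha hb
    obtain ⟨f, θ, rfl⟩ := ha
    obtain ⟨g, φ, rfl⟩ := hb
    have e : Unq_c f θ * Unq_c g φ =
        (1 / 2 : ℝ) • (Unq_c (f + g) (θ + φ) + Unq_c (f - g) (θ - φ)) := by
      ext T
      show cos (T f + θ) * cos (T g + φ) =
        (1 / 2 : ℝ) * (cos (T (f + g) + (θ + φ)) + cos (T (f - g) + (θ - φ)))
      rw [map_add, map_sub, show T f + T g + (θ + φ) = (T f + θ) + (T g + φ) by ring,
        show T f - T g + (θ - φ) = (T f + θ) - (T g + φ) by ring, cos_add (T f + θ),
        cos_sub (T f + θ)]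
      ring
    show Unq_c f θ * Unq_c g φ ∈ Submodule.span ℝ S
    rw [e]
    exact Submodule.smul_mem _ _ (add_mem (mem _ _) (mem _ _))
  refine Unq_alg P Q ht (A := (Submodule.span ℝ S).toSubalgebra h1 hmul) ?_ ?_
  · intro T T' hT
    obtain ⟨f, hf⟩ : ∃ f, T f ≠ T' f := by
      by_contra hn
      exact hT (DFunLike.ext T T' fun f => by
        by_contra h; exact hn ⟨f, h⟩)
    have hd := sub_ne_zero.2 hf
    refine ⟨_, ⟨_, ⟨Unq_c ((π / (T f - T' f)) • f) (-(π / (T f - T' f) * T' f)), mem _ _, rfl⟩,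
      rfl⟩, ?_⟩
    show cos (T _ + _) ≠ cos (T' _ + _)
    rw [map_smul, map_smul, smul_eq_mul, smul_eq_mul, add_neg_cancel, ← sub_eq_add_neg, ← mul_sub,
      div_mul_cancel₀ _ hd, cos_pi, cos_zero]
    norm_num
  · intro g hg
    have hg' : g ∈ Submodule.span ℝ S := hg
    induction hg' using Submodule.span_induction with
    | mem g h =>
      rw [hS] at h
      obtain ⟨f, θ, rfl⟩ := h
      have key : ∀ (μ : Measure (DS U)) [IsProbabilityMeasure μ], ∫ T, Unq_c f θ T ∂μ =
          (Complex.exp (Complex.I * θ) * ∫ T, Complex.exp (Complex.I * (T f : ℝ)) ∂μ).re := by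
        intro μ _
        have hi : Integrable (fun T : DS U =>
            Complex.exp (Complex.I * θ) * Complex.exp (Complex.I * (T f : ℝ))) μ := by
          refine Integrable.const_mul (Integrable.of_bound (Continuous.aestronglyMeasurable
            (Complex.continuous_exp.comp (continuous_const.mul
              (Complex.continuous_ofReal.comp (continuous_eval_const f))))) 1
            (ae_of_all _ fun T => ?_)) _
          exact (Complex.norm_exp_I_mul_ofReal _).le
        rw [← integral_const_mul, ← Complex.reCLM_apply, ← Complex.reCLM.integral_comp_comm hi]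
        refine integral_congr_ae (ae_of_all _ fun T => ?_)
        show cos (T f + θ) = (Complex.exp _ * Complex.exp _).re
        rw [← Complex.exp_add, ← mul_add, ← Complex.ofReal_add, mul_comm,
          Complex.exp_ofReal_mul_I_re, add_comm]
      rw [key P, key Q, hc f]
    | zero => simp
    | add a b ha hb h h' =>
      have e : ∀ μ : Measure (DS U), IsProbabilityMeasure μ →
          ∫ T, (a + b) T ∂μ = ∫ T, a T ∂μ + ∫ T, b T ∂μ := fun μ _ =>
        integral_add (a.integrable μ) (b.integrable μ)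
      rw [e P ‹_›, e Q ‹_›, h ha, h' hb]
    | smul c a ha h =>
      have e : ∀ μ : Measure (DS U), ∫ T, (c • a) T ∂μ = c * ∫ T, a T ∂μ := fun μ =>
        integral_const_mul c fun T => a T
      rw [e P, e Q, h ha]

end Vale.Agent.P153.Dist
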